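import Mathlib

/-!
# Auxiliary lemmas for the trace formula: power sums of eigenvalues, degree filtration
-/

set_option autoImplicit false

namespace Crest.Agent.R316.TraceAux

open MvPolynomial

theorem exists_powsum_end {V : Type*} [AddCommGroup V] [Module ℂ V] [FiniteDimensional ℂ V]
    (f : Module.End ℂ V) :
    ∃ Λ : Multiset ℂ, Λ.card = Module.finrank ℂ V ∧ (∀ μ, f.HasEigenvalue μ → μ ∈ Λ) ∧
      ∀ k : ℕ, (Λ.map (· ^ k)).sum = LinearMap.trace ℂ V (f ^ k) := by
  classical
  have hds := DirectSum.isInternal_submodule_of_iSupIndep_of_iSup_eq_top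
    f.independent_maxGenEigenspace f.iSup_maxGenEigenspace_eq_top
  have h_fin : {μ | f.maxGenEigenspace μ ≠ ⊥}.Finite :=
    WellFoundedGT.finite_ne_bot_of_iSupIndep f.independent_maxGenEigenspace
  have hm : ∀ (k : ℕ) μ, Set.MapsTo (f ^ k) (f.maxGenEigenspace μ) (f.maxGenEigenspace μ) :=
    fun k μ => f.mapsTo_maxGenEigenspace_of_comm ((Commute.refl f).pow_right k) μ
  have hm1 : ∀ μ, Set.MapsTo f (f.maxGenEigenspace μ) (f.maxGenEigenspace μ) :=
    fun μ => f.mapsTo_maxGenEigenspace_of_comm (Commute.refl f) μ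
  have htr : ∀ (k : ℕ) μ, LinearMap.trace ℂ _ ((f ^ k).restrict (hm k μ)) =
      (Module.finrank ℂ (f.maxGenEigenspace μ) : ℂ) * μ ^ k := by
    intro k μ
    have h1 : (f ^ k).restrict (hm k μ) = (f.restrict (hm1 μ)) ^ k := by
      rw [Module.End.pow_restrict]
    rw [h1]
    clear h1
    induction k with
    | zero => simp
    | succ k ih =>
      have hn := f.isNilpotent_restrict_maxGenEigenspace_sub_algebraMap μ
      rw [pow_succ, Module.End.mul_eq_comp,
        LinearMap.trace_comp_eq_mul_of_commute_of_isNilpotent μ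
          ((Commute.refl _).pow_left k) hn, ih]
      ring
  have hsum : ∀ k : ℕ, (((∑ μ ∈ h_fin.toFinset,
      Multiset.replicate (Module.finrank ℂ (f.maxGenEigenspace μ)) μ).map (· ^ k)).sum) =
      LinearMap.trace ℂ V (f ^ k) := by
    intro k
    rw [LinearMap.trace_eq_sum_trace_restrict' hds h_fin (hm k)]
    simp only [htr]
    generalize h_fin.toFinset = s
    induction s using Finset.induction_on with
    | empty => simp
    | insert j s hj ih => rw [Finset.sum_insert hj, Finset.sum_insert hj, Multiset.map_add,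
        Multiset.sum_add, ih]; simp
  refine ⟨_, ?_, ?_, hsum⟩
  · have := hsum 0
    simp only [pow_zero, Multiset.map_const', Multiset.sum_replicate, nsmul_eq_mul, mul_one,
      LinearMap.trace_one] at this
    exact_mod_cast this
  · intro μ hμ
    have h1 : f.maxGenEigenspace μ ≠ ⊥ := by
      intro h
      refine hμ (le_bot_iff.mp ?_)
      rw [← h]
      exact f.genEigenspace_le_maximal μ 1
    rw [Multiset.mem_sum]
    refine ⟨μ, by simpa using h1, Multiset.mem_replicate.mpr ⟨?_, rfl⟩⟩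
    rwa [Ne, Submodule.finrank_eq_zero]

theorem exists_powsum {ι : Type*} [Fintype ι] [DecidableEq ι] (M : Matrix ι ι ℂ) :
    ∃ Λ : Multiset ℂ, Λ.card = Fintype.card ι ∧
      (∀ (μ : ℂ) (w : ι → ℂ), w ≠ 0 → M.mulVec w = μ • w → μ ∈ Λ) ∧
      ∀ k : ℕ, (Λ.map (· ^ k)).sum = (M ^ k).trace := by
  obtain ⟨Λ, h1, h2, h3⟩ := exists_powsum_end (Matrix.toLin' M)
  refine ⟨Λ, by simpa using h1, fun μ w hw hM => h2 μ ?_, fun k => ?_⟩
  · exact Module.End.hasEigenvalue_of_hasEigenvector
      ⟨Module.End.mem_eigenspace_iff.mpr (by simpa using hM), hw⟩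
  · rw [h3, ← Matrix.toLin'_pow, Matrix.trace_toLin'_eq]

variable {σ : Type*} {A : Type*} [CommRing A]

/-- polynomials all of whose monomials have degree `< N` -/
noncomputable def Lt (A : Type*) [CommRing A] (N : ℕ) : Submodule A (MvPolynomial σ A) :=
  restrictSupport A {m | m.degree < N}

theorem mem_Lt {N : ℕ} {p : MvPolynomial σ A} : p ∈ Lt A N ↔ ∀ m ∈ p.support, m.degree < N :=
  Iff.rfl

theorem mem_Lt_succ {N : ℕ} {p : MvPolynomial σ A} : p ∈ Lt A (N + 1) ↔ p.totalDegree ≤ N := by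
  rw [mem_Lt, totalDegree, Finset.sup_le_iff]
  simp only [Nat.lt_succ_iff]
  rfl

theorem Lt_mono {N N' : ℕ} (h : N ≤ N') {p : MvPolynomial σ A} (hp : p ∈ Lt A N) :
    p ∈ Lt A N' := fun _ hm => lt_of_lt_of_le (hp hm) h

theorem Lt_mul {a b : ℕ} {p q : MvPolynomial σ A} (hp : p ∈ Lt A a) (hq : q ∈ Lt A (b + 1)) :
    p * q ∈ Lt A (a + b) := by
  classical
  rw [mem_Lt] at *
  intro m hm
  obtain ⟨m1, h1, m2, h2, rfl⟩ := Finset.mem_add.mp (support_mul p q hm)
  have := hp m1 h1
  have := hq m2 h2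
  rw [map_add]; omega

theorem monomial_mem_Lt {N : ℕ} {m : σ →₀ ℕ} (h : m.degree < N) (a : A) :
    monomial m a ∈ Lt A N := (monomial_mem_restrictSupport A).mpr (Or.inl h)

theorem C_mem_Lt {N : ℕ} (a : A) : (C a : MvPolynomial σ A) ∈ Lt A (N + 1) :=
  monomial_mem_Lt (by simp) a

theorem X_pow_mem_Lt {N k : ℕ} (h : k < N) (i : σ) : (X i ^ k : MvPolynomial σ A) ∈ Lt A N := by
  rw [X_pow_eq_monomial]; exact monomial_mem_Lt (by simpa using h) 1

theorem pderiv_mem_Lt {N : ℕ} {p : MvPolynomial σ A} (hp : p ∈ Lt A (N + 1)) (j : σ) :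
    pderiv j p ∈ Lt A N := by
  rw [mem_Lt] at *
  intro m hm
  rw [mem_support_iff, coeff_pderiv] at hm
  have := hp _ (mem_support_iff.mpr (left_ne_zero_of_mul hm))
  simpa using this

theorem coeff_eq_zero_of_Lt {N : ℕ} {p : MvPolynomial σ A} (hp : p ∈ Lt A N) {m : σ →₀ ℕ}
    (h : N ≤ m.degree) : coeff m p = 0 := by
  by_contra h1
  exact absurd (mem_Lt.mp hp m (mem_support_iff.mpr h1)) (not_lt.mpr h)

theorem prod_mem_Lt {ι : Type*} (s : Finset ι) {a : ι → MvPolynomial σ A} {e : ι → ℕ}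
    (ha : ∀ i, a i ∈ Lt A (e i + 1)) : ∏ i ∈ s, a i ∈ Lt A (∑ i ∈ s, e i + 1) := by
  classical
  induction s using Finset.induction_on with
  | empty => simpa using C_mem_Lt (σ := σ) (N := 0) (1 : A)
  | insert j s hj ih =>
    rw [Finset.prod_insert hj, Finset.sum_insert hj]
    exact Lt_mono (by omega) (Lt_mul (ha j) ih)

theorem pow_mem_Lt {a : MvPolynomial σ A} {e : ℕ} (ha : a ∈ Lt A (e + 1)) (k : ℕ) :
    a ^ k ∈ Lt A (k * e + 1) := by
  simpa using prod_mem_Lt (Finset.range k) (a := fun _ => a) (e := fun _ => e) fun _ => ha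

theorem prod_sub_prod_mem_Lt {ι : Type*} (s : Finset ι) {a b : ι → MvPolynomial σ A} {e : ℕ}
    (ha : ∀ i, a i ∈ Lt A (e + 1)) (hb : ∀ i, b i ∈ Lt A (e + 1))
    (hab : ∀ i, a i - b i ∈ Lt A e) : ∏ i ∈ s, a i - ∏ i ∈ s, b i ∈ Lt A (s.card * e) := by
  classical
  induction s using Finset.induction_on with
  | empty => simp
  | insert j s hj ih =>
    rw [Finset.prod_insert hj, Finset.prod_insert hj, Finset.card_insert_of_notMem hj]
    have h1 := Lt_mul ih (ha j)
    have h2 := Lt_mul (hab j) (prod_mem_Lt s (e := fun _ => e) hb)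
    rw [Finset.sum_const, smul_eq_mul] at h2
    have := Submodule.add_mem _ (Lt_mono (N' := (s.card + 1) * e) (by nlinarith) h1)
      (Lt_mono (N' := (s.card + 1) * e) (by nlinarith) h2)
    convert this using 1; ring

theorem det_mem_Lt {ι : Type*} [Fintype ι] [DecidableEq ι] {M : Matrix ι ι (MvPolynomial σ A)}
    {e : ℕ} (hM : ∀ i j, M i j ∈ Lt A (e + 1)) : M.det ∈ Lt A (Fintype.card ι * e + 1) := by
  rw [Matrix.det_apply]
  refine Submodule.sum_mem _ fun π _ => ?_
  rw [Units.smul_def]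
  refine zsmul_mem ?_ _
  simpa using prod_mem_Lt Finset.univ (a := fun i => M (π i) i) (e := fun _ => e) fun i => hM _ _

theorem det_sub_det_mem_Lt {ι : Type*} [Fintype ι] [DecidableEq ι]
    {M D : Matrix ι ι (MvPolynomial σ A)} {e : ℕ} (hM : ∀ i j, M i j ∈ Lt A (e + 1))
    (hD : ∀ i j, D i j ∈ Lt A (e + 1)) (h : ∀ i j, M i j - D i j ∈ Lt A e) :
    M.det - D.det ∈ Lt A (Fintype.card ι * e) := by
  rw [Matrix.det_apply, Matrix.det_apply, ← Finset.sum_sub_distrib]
  refine Submodule.sum_mem _ fun π _ => ?_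
  rw [← smul_sub, Units.smul_def]
  refine zsmul_mem ?_ _
  exact prod_sub_prod_mem_Lt Finset.univ (a := fun i => M (π i) i) (b := fun i => D (π i) i)
    (fun i => hM _ _) (fun i => hD _ _) fun i => h _ _

/-- divided differences: `g (x) - g (y) = ∑ θ_j (x_j - y_j)` -/
theorem exists_divdiff [Fintype σ] [DecidableEq σ] (N : ℕ) (g : MvPolynomial σ A)
    (hg : g ∈ Lt A (N + 1)) :
    ∃ θ : σ → MvPolynomial σ (MvPolynomial σ A),
      ∑ j, θ j * (X j - C (X j)) = map C g - C g ∧ (∀ j, eval X (θ j) = pderiv j g) ∧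
        ∀ j, θ j ∈ Lt (MvPolynomial σ A) N := by
  have hmon : ∀ (N : ℕ) (m : σ →₀ ℕ) (c : A), m.degree ≤ N →
      ∃ θ : σ → MvPolynomial σ (MvPolynomial σ A),
      ∑ j, θ j * (X j - C (X j)) = map C (monomial m c) - C (monomial m c) ∧
        (∀ j, eval X (θ j) = pderiv j (monomial m c)) ∧
        ∀ j, θ j ∈ Lt (MvPolynomial σ A) N := by
    intro N
    induction N with
    | zero =>
      intro m c hm
      obtain rfl : m = 0 := (Finsupp.degree_eq_zero_iff m).mp (by omega)
      exact ⟨0, by simp, by simp, fun _ => Submodule.zero_mem _⟩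
    | succ N ih =>
      intro m c hm
      by_cases h0 : m = 0
      · subst h0
        exact ⟨0, by simp, by simp, fun _ => Submodule.zero_mem _⟩
      obtain ⟨l, hl⟩ : ∃ l, m l ≠ 0 := by
        by_contra h; push Not at h; exact h0 (Finsupp.ext h)
      obtain ⟨m', rfl⟩ : ∃ m', m = m' + Finsupp.single l 1 :=
        ⟨m - Finsupp.single l 1, (tsub_add_cancel_of_le
          (Finsupp.single_le_iff.mpr (Nat.one_le_iff_ne_zero.mpr hl))).symm⟩
      obtain ⟨θ, h1, h2, h3⟩ := ih m' c (by simpa using hm)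
      rw [monomial_add_single, pow_one]
      refine ⟨fun j => θ j * X l + if j = l then C (monomial m' c) else 0, ?_, fun j => ?_,
        fun j => Submodule.add_mem _ (Lt_mul (h3 j) (by simpa using X_pow_mem_Lt (k := 1) (by omega) l)) ?_⟩
      · simp only [add_mul, Finset.sum_add_distrib, ite_mul, zero_mul, Finset.sum_ite_eq',
          Finset.mem_univ, if_true, mul_right_comm _ (X l), ← Finset.sum_mul, h1, map_mul, map_X]
        ring
      · rw [pderiv_mul, ← h2, pderiv_X, Pi.single_apply]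
        by_cases hj : j = l
        · subst hj; simp
        · simp [hj, Ne.symm hj]
      · split_ifs
        · exact C_mem_Lt _
        · exact Submodule.zero_mem _
  choose! θ h1 h2 h3 using fun m : σ →₀ ℕ => hmon N m (coeff m g)
  have hs : ∀ m ∈ g.support, m.degree ≤ N := fun m hm => Nat.lt_succ_iff.mp (mem_Lt.mp hg m hm)
  refine ⟨fun j => ∑ m ∈ g.support, θ m j, ?_, fun j => ?_,
    fun j => Submodule.sum_mem _ fun m hm => h3 m (hs m hm) j⟩
  · simp only [Finset.sum_mul]
    rw [Finset.sum_comm, Finset.sum_congr rfl fun m hm => h1 m (hs m hm), Finset.sum_sub_distrib,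
      ← map_sum, ← map_sum, ← as_sum]
  · rw [map_sum, Finset.sum_congr rfl fun m hm => h2 m (hs m hm) j, ← map_sum, ← as_sum]

end Crest.Agent.R316.TraceAux
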