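import Crest.Agent.R316.Trace.Aux1

/-!
# The global residue functional and the Bezoutian
-/

set_option autoImplicit false

namespace Crest.Agent.R316.TraceAux

open MvPolynomial

variable {n : ℕ}

/-- the exponent `d (κ + 1) - 1`, `d = e + 1` -/
noncomputable def ex (e : ℕ) (κ : Fin n → ℕ) : Fin n →₀ ℕ :=
  Finsupp.equivFunOnFinite.symm fun i => (e + 1) * (κ i + 1) - 1

theorem ex_apply (e : ℕ) (κ : Fin n → ℕ) (i : Fin n) : ex e κ i = κ i * e + κ i + e := by
  simp only [ex, Finsupp.equivFunOnFinite_symm_apply_apply]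
  rw [show (e + 1) * (κ i + 1) = κ i * e + κ i + e + 1 by ring, Nat.add_sub_cancel]

theorem degree_ex (e : ℕ) (κ : Fin n → ℕ) :
    (ex e κ).degree = ∑ i, κ i * e + ∑ i, κ i + n * e := by
  simp [Finsupp.degree_eq_sum, ex_apply, Finset.sum_add_distrib]

theorem exists_tau (e : ℕ) (g : Fin n → MvPolynomial (Fin n) ℂ) (hg : ∀ i, g i ∈ Lt ℂ (e + 1)) :
    ∃ τ : MvPolynomial (Fin n) ℂ →ₗ[ℂ] ℂ, (∀ i r, τ ((X i ^ (e + 1) - g i) * r) = 0) ∧
      (∀ h ∈ Lt ℂ (n * e), τ h = 0) ∧ τ (monomial (ex e 0) 1) = 1 ∧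
      ∀ (h : MvPolynomial (Fin n) ℂ) (N K : ℕ), h ∈ Lt ℂ (N + n * e + 1) → N < K →
        τ h = ∑ κ ∈ Fintype.piFinset (fun _ : Fin n => Finset.range K),
          if ∑ i, κ i ≤ N then coeff (ex e κ) (h * ∏ i, g i ^ κ i) else 0 := by
  classical
  set term : MvPolynomial (Fin n) ℂ → (Fin n → ℕ) → ℂ :=
    fun h κ => coeff (ex e κ) (h * ∏ i, g i ^ κ i) with hterm
  have hz : ∀ (h : MvPolynomial (Fin n) ℂ) (N : ℕ) (κ : Fin n → ℕ), h ∈ Lt ℂ N →
      N ≤ ∑ i, κ i + n * e → term h κ = 0 := by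
    intro h N κ hh hκ
    refine coeff_eq_zero_of_Lt (Lt_mul hh
      (prod_mem_Lt Finset.univ (e := fun i => κ i * e) fun i => pow_mem_Lt (hg i) _)) ?_
    rw [degree_ex]; omega
  have hout : ∀ (h : MvPolynomial (Fin n) ℂ) (N K : ℕ), h ∈ Lt ℂ (N + n * e + 1) → N < K →
      ∀ κ ∉ Fintype.piFinset (fun _ : Fin n => Finset.range K), term h κ = 0 := by
    intro h N K hh hK κ hκ
    simp only [Fintype.mem_piFinset, Finset.mem_range, not_forall, not_lt] at hκ
    obtain ⟨i, hi⟩ := hκ
    have := Finset.single_le_sum (f := κ) (fun _ _ => Nat.zero_le _) (Finset.mem_univ i)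
    exact hz h _ κ hh (by omega)
  have hsum : ∀ h, Summable (term h) := fun h =>
    summable_of_ne_finset_zero (hout h h.totalDegree (h.totalDegree + 1)
      (mem_Lt_succ.mpr (by omega)) (by omega))
  let τ : MvPolynomial (Fin n) ℂ →ₗ[ℂ] ℂ :=
    { toFun := fun h => ∑' κ, term h κ
      map_add' := fun a b => by
        rw [← (hsum a).tsum_add (hsum b)]
        simp only [hterm, add_mul, coeff_add]
      map_smul' := fun c a => by
        simp only [hterm, smul_mul_assoc, coeff_smul, smul_eq_mul, RingHom.id_apply,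
          tsum_mul_left] }
  have hτ : ∀ h, τ h = ∑' κ, term h κ := fun _ => rfl
  refine ⟨τ, fun i r => ?_, fun h hh => ?_, ?_, fun h N K hh hK => ?_⟩
  · rw [sub_mul, map_sub, sub_eq_zero, hτ, hτ]
    have hinj : Function.Injective fun κ : Fin n → ℕ => κ + Pi.single i 1 :=
      add_left_injective _
    rw [← hinj.tsum_eq]
    · refine tsum_congr fun κ => ?_
      have h1 : ex e (κ + Pi.single i 1) = Finsupp.single i (e + 1) + ex e κ := by
        ext j
        by_cases hj : j = i
        · subst hj; simp [ex_apply]; ring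
        · simp [ex_apply, hj]
      have h2 : ∏ j, g j ^ (κ + Pi.single i 1 : Fin n → ℕ) j = g i * ∏ j, g j ^ κ j := by
        simp only [Pi.add_apply, pow_add, Finset.prod_mul_distrib]
        rw [mul_comm, Finset.prod_eq_single i (fun j _ hj => by simp [hj]) (by simp)]
        simp
      simp only [hterm]
      rw [h1, h2, mul_assoc, X_pow_eq_monomial, coeff_monomial_mul, one_mul]
      congr 1; ring
    · intro κ hκ
      have h1 : κ i ≠ 0 := by
        intro h0
        apply hκ
        simp only [hterm]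
        rw [mul_assoc, X_pow_eq_monomial, coeff_monomial_mul', if_neg]
        rw [Finsupp.single_le_iff, ex_apply, h0]; omega
      refine ⟨κ - Pi.single i 1, funext fun j => ?_⟩
      by_cases hj : j = i
      · subst hj; simp; omega
      · simp [hj]
  · rw [hτ, tsum_congr fun κ => hz h _ κ hh (by omega), tsum_zero]
  · rw [hτ, tsum_eq_single 0]
    · simp [hterm]
    · intro κ hκ
      refine hz _ (n * e + 1) κ (monomial_mem_Lt (by simp [degree_ex]) 1) ?_
      have : ∑ i, κ i ≠ 0 := fun h => hκ (funext fun i =>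
        Finset.sum_eq_zero_iff.mp h i (Finset.mem_univ i))
      omega
  · rw [hτ, tsum_eq_sum (hout h N K hh hK)]
    refine Finset.sum_congr rfl fun κ _ => ?_
    split_ifs with h1
    · rfl
    · exact hz h _ κ hh (by omega)

/-- the Bezoutian matrix -/
theorem exists_bezout (e : ℕ) (g : Fin n → MvPolynomial (Fin n) ℂ)
    (hg : ∀ i, g i ∈ Lt ℂ (e + 1)) :
    ∃ Θ : Matrix (Fin n) (Fin n) (MvPolynomial (Fin n) (MvPolynomial (Fin n) ℂ)),
      (∀ i, ∑ j, Θ i j * (X j - C (X j)) =
        map C (X i ^ (e + 1) - g i) - C (X i ^ (e + 1) - g i)) ∧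
      eval X Θ.det = (Matrix.of fun i j : Fin n => pderiv j (X i ^ (e + 1) - g i)).det ∧
      Θ.det ∈ Lt _ (n * e + 1) ∧ Θ.det - monomial (ex e 0) 1 ∈ Lt _ (n * e) := by
  classical
  choose θ h1 h2 h3 using fun i => exists_divdiff e (g i) (hg i)
  set G : Fin n → MvPolynomial (Fin n) (MvPolynomial (Fin n) ℂ) :=
    fun i => ∑ r ∈ Finset.range (e + 1), X i ^ r * C (X i) ^ (e + 1 - 1 - r) with hG
  set D : Matrix (Fin n) (Fin n) (MvPolynomial (Fin n) (MvPolynomial (Fin n) ℂ)) :=
    Matrix.diagonal fun i => X i ^ e with hD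
  have hD1 : ∀ i j, D i j ∈ Lt _ (e + 1) := fun i j => by
    rw [hD, Matrix.diagonal_apply]
    split_ifs
    · exact X_pow_mem_Lt (by omega) _
    · exact Submodule.zero_mem _
  have hD2 : ∀ i j, (Matrix.diagonal G - Matrix.of θ) i j - D i j ∈ Lt _ e := fun i j => by
    rw [Matrix.sub_apply, sub_right_comm]
    refine Submodule.sub_mem _ ?_ (h3 i j)
    rw [hD, Matrix.diagonal_apply, Matrix.diagonal_apply]
    split_ifs
    · simp only [hG, Finset.sum_range_succ, Nat.add_sub_cancel, Nat.sub_self, pow_zero, mul_one,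
        add_sub_cancel_right]
      refine Submodule.sum_mem _ fun r hr => ?_
      rw [← C_pow]
      exact Lt_mul (b := 0) (X_pow_mem_Lt (Finset.mem_range.mp hr) _) (C_mem_Lt _)
    · simp
  have hD3 : ∀ i j, (Matrix.diagonal G - Matrix.of θ) i j ∈ Lt _ (e + 1) := fun i j => by
    simpa using Submodule.add_mem _ (Lt_mono (Nat.le_succ e) (hD2 i j)) (hD1 i j)
  refine ⟨Matrix.diagonal G - Matrix.of θ, fun i => ?_, ?_, by simpa using det_mem_Lt hD3, ?_⟩
  · simp only [Matrix.sub_apply, Matrix.of_apply, sub_mul _ (θ _ _),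
      Finset.sum_sub_distrib, h1, Matrix.diagonal_apply, ite_mul, zero_mul, Finset.sum_ite_eq,
      Finset.mem_univ, if_true, hG, geom_sum₂_mul, map_sub, map_pow, map_X]
    ring
  · rw [RingHom.map_det]
    congr 1
    ext i j : 2
    simp only [RingHom.mapMatrix_apply, Matrix.map_apply, Matrix.sub_apply, Matrix.of_apply,
      map_sub, h2, Matrix.diagonal_apply, pderiv_pow, pderiv_X, Pi.single_apply]
    congr 1
    split_ifs
    · simp only [hG, map_sum, map_mul, map_pow, eval_X, eval_C, geom_sum₂_self, mul_one]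
    · simp
  · have := det_sub_det_mem_Lt hD3 hD1 hD2
    rw [hD, Matrix.det_diagonal, Fintype.card_fin] at this
    convert this using 2
    rw [monomial_eq, Finsupp.prod_fintype _ _ (by simp)]
    simp [ex_apply]

/-- the reproducing formula -/
theorem exists_repro (e : ℕ) (g : Fin n → MvPolynomial (Fin n) ℂ)
    (hg : ∀ i, g i ∈ Lt ℂ (e + 1)) (τ : MvPolynomial (Fin n) ℂ →ₗ[ℂ] ℂ)
    (hτ1 : ∀ i r, τ ((X i ^ (e + 1) - g i) * r) = 0) (hτ2 : ∀ h ∈ Lt ℂ (n * e), τ h = 0)
    (hτ3 : τ (monomial (ex e 0) 1) = 1) :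
    ∃ Δ : MvPolynomial (Fin n) (MvPolynomial (Fin n) ℂ),
      eval X Δ = (Matrix.of fun i j : Fin n => pderiv j (X i ^ (e + 1) - g i)).det ∧
      Δ ∈ Lt _ (n * e + 1) ∧
      ∀ ψ : MvPolynomial (Fin n) ℂ →ₗ[ℂ] ℂ, (∀ i r, ψ ((X i ^ (e + 1) - g i) * r) = 0) →
        ∀ h, ψ h = ∑ m ∈ Δ.support, τ (h * monomial m 1) * ψ (coeff m Δ) := by
  classical
  obtain ⟨Θ, h1, h2, h3, h4⟩ := exists_bezout e g hg
  refine ⟨Θ.det, h2, h3, fun ψ hψ h => ?_⟩
  let T : MvPolynomial (Fin n) (MvPolynomial (Fin n) ℂ) →ₗ[MvPolynomial (Fin n) ℂ]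
      MvPolynomial (Fin n) ℂ :=
    (basisMonomials (Fin n) _).constr ℕ fun m => C (τ (monomial m 1))
  have hT : ∀ m a, T (monomial m a) = τ (monomial m 1) • a := by
    intro m a
    have : T (monomial m 1) = C (τ (monomial m 1)) := by
      have := (basisMonomials (Fin n) (MvPolynomial (Fin n) ℂ)).constr_basis ℕ
        (fun m => (C (τ (monomial m 1)) : MvPolynomial (Fin n) ℂ)) m
      simpa using this
    have h5 : monomial m a = a • monomial m (1 : MvPolynomial (Fin n) ℂ) := by
      rw [smul_monomial, smul_eq_mul, mul_one]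
    rw [h5, map_smul, this, smul_eq_mul, mul_comm, smul_eq_C_mul]
  have hT1 : ∀ p : MvPolynomial (Fin n) ℂ, T (map C p) = C (τ p) := by
    intro p
    induction p using MvPolynomial.induction_on' with
    | monomial m c =>
      rw [map_monomial, hT, smul_eq_C_mul, ← C_mul, mul_comm, ← smul_eq_mul, ← map_smul,
        smul_monomial, smul_eq_mul, mul_one]
    | add p q hp hq => simp only [map_add, hp, hq]
  have hT2 : ∀ (p : MvPolynomial (Fin n) ℂ) m a,
      T (map C p * monomial m a) = τ (p * monomial m 1) • a := by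
    intro p m a
    have : map C p * monomial m a = a • map C (p * monomial m 1) := by
      rw [map_mul, map_monomial, ← mul_smul_comm, smul_monomial, map_one, smul_eq_mul, mul_one]
    rw [this, map_smul, hT1, smul_eq_mul, mul_comm, smul_eq_C_mul]
  have hT3 : ∀ (p : MvPolynomial (Fin n) ℂ) F,
      T (map C p * F) = ∑ m ∈ F.support, τ (p * monomial m 1) • coeff m F := by
    intro p F
    conv_lhs => rw [F.as_sum, Finset.mul_sum, map_sum]
    simp only [hT2]
  have hT4 : ∀ a F, T (C a * F) = a * T F := fun a F => by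
    rw [← smul_eq_C_mul, map_smul, smul_eq_mul]
  have hT5 : T Θ.det = 1 := by
    have h5 : T (Θ.det - monomial (ex e 0) 1) = 0 := by
      have := hT3 1 (Θ.det - monomial (ex e 0) 1)
      rw [map_one, one_mul] at this
      rw [this]
      refine Finset.sum_eq_zero fun m hm => ?_
      rw [one_mul, hτ2 _ (monomial_mem_Lt (mem_Lt.mp h4 m hm) 1), zero_smul]
    rw [map_sub, hT, hτ3, one_smul] at h5
    exact sub_eq_zero.mp h5
  have hψ1 : ∀ i F, ψ (T ((map C (X i ^ (e + 1) - g i) - C (X i ^ (e + 1) - g i)) * F)) = 0 := by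
    intro i F
    rw [sub_mul, map_sub, hT3, hT4, map_sub, hψ]
    simp [hτ1]
  have hadj : ∀ j, (X j - C (X j)) * Θ.det =
      ∑ i, (map C (X i ^ (e + 1) - g i) - C (X i ^ (e + 1) - g i)) * Θ.adjugate j i := by
    intro j
    have h5 := congrFun (Matrix.mulVec_mulVec (fun j => X j - C (X j)) Θ.adjugate Θ) j
    rw [Matrix.adjugate_mul, Matrix.smul_mulVec, Matrix.one_mulVec] at h5
    simp only [Matrix.mulVec, dotProduct, h1, Pi.smul_apply, smul_eq_mul] at h5
    rw [mul_comm, ← h5]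
    simp only [mul_comm]
  obtain ⟨θ, h6, -, -⟩ := exists_divdiff h.totalDegree h (mem_Lt_succ.mpr le_rfl)
  have h7 : ψ (T ((map C h - C h) * Θ.det)) = 0 := by
    rw [← h6, Finset.sum_mul, map_sum, map_sum]
    refine Finset.sum_eq_zero fun j _ => ?_
    rw [mul_assoc, hadj, Finset.mul_sum, map_sum, map_sum]
    refine Finset.sum_eq_zero fun i _ => ?_
    rw [mul_left_comm, hψ1]
  rw [sub_mul, map_sub, hT3, hT4, hT5, mul_one, map_sub, sub_eq_zero, map_sum] at h7
  simp only [← h7, map_smul, smul_eq_mul]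

end Crest.Agent.R316.TraceAux
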